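import Vale.Agent.P304Z.Final
import Vale.Agent.P304Z.LB1
import Vale.Agent.P304Z.LB2
import Vale.Agent.P304Z.LB3
import Vale.Agent.P304Z.LB4
import Vale.Agent.P304Z.LB5

namespace Vale.Agent.Results.P304.AALogSquared

open Vale.Agent.P304

/-- **The randomized `k`-server ratio has order exactly `log ^ 2 k`.** There are absolute
constants `c, C > 0` such that `c (1 + log k) ^ 2 ≤ R k ≤ C (1 + log k) ^ 2` for every `k ≥ 1`;
`R k` is the supremum of the randomized competitive ratio over all metric spaces with at least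
`k + 1` points and all starting positions. -/
theorem result : ∃ c C : ℝ, 0 < c ∧ 0 < C ∧ ∀ k : ℕ, 1 ≤ k →
    ENNReal.ofReal (c * (1 + Real.log k) ^ 2) ≤ R k ∧
      R k ≤ ENNReal.ofReal (C * (1 + Real.log k) ^ 2) := by
  obtain ⟨c, hc, hl⟩ := Vale.Agent.P304Z.LB.lower_of Vale.Agent.P304Z.LB.stBase
    (Vale.Agent.P304Z.LB.stStep (Vale.Agent.P304Z.LB.stMid Vale.Agent.P304Z.LB.rules))
    Vale.Agent.P304Z.LB.stExtract Vale.Agent.P304Z.LB.stReduce
  obtain ⟨C, hC, hu⟩ := Vale.Agent.P304Z.R_le_log_sq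
  exact ⟨c, C, hc, hC, fun k hk => ⟨hl k hk, hu k hk⟩⟩

end Vale.Agent.Results.P304.AALogSquared
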